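import Mathlib

/-!
# P101, third formulation: definitions used in the statement

Characters of `F_ω(A)`; the minimal tensor product as the completion in the smallest C*-norm; the
Jiang-Su algebra as a strongly self-absorbing limit of prime dimension drop algebras.
-/

open scoped TensorProduct BoundedContinuousFunction Topology
open Filter

namespace P101C

universe u

section Central

variable {A : Type u} [CStarAlgebra A]

/-- The bounded sequence `(x_n)` is `ω`-central: `lim_{n → ω} ‖x_n a - a x_n‖ = 0` for all `a ∈ A`.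
(`ℕ →ᵇ A` is the C*-algebra `ℓ^∞(ℕ, A)`; the classes of the `ω`-central sequences in `A_ω` are the
elements of `F_ω(A) = A_ω ∩ A'`.) -/
def IsCentral (ω : Ultrafilter ℕ) (x : ℕ →ᵇ A) : Prop :=
  ∀ a : A, Tendsto (fun n => ‖x n * a - a * x n‖) (ω : Filter ℕ) (𝓝 0)

/-- `χ` is a character of `F_ω(A)`, composed with the quotient map: a unital *-homomorphism on the
`ω`-central sequences that vanishes on the sequences with `lim_{n → ω} ‖x_n‖ = 0`.  (The values of
`χ` at other sequences do not matter.) -/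
structure IsCharacter (ω : Ultrafilter ℕ) (χ : (ℕ →ᵇ A) → ℂ) : Prop where
  map_add : ∀ x y, IsCentral ω x → IsCentral ω y → χ (x + y) = χ x + χ y
  map_smul : ∀ (c : ℂ) x, IsCentral ω x → χ (c • x) = c * χ x
  map_mul : ∀ x y, IsCentral ω x → IsCentral ω y → χ (x * y) = χ x * χ y
  map_star : ∀ x, IsCentral ω x → χ (star x) = star (χ x)
  map_one : χ 1 = 1
  map_null : ∀ x : ℕ →ᵇ A, Tendsto (fun n => ‖x n‖) (ω : Filter ℕ) (𝓝 0) → χ x = 0

end Central

section Tensor

variable {A Z B : Type u} [CStarAlgebra A] [CStarAlgebra Z] [CStarAlgebra B]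

/-- `‖m ·‖` is at most every C*-norm on `A ⊗ Z` that comes from an injective *-homomorphism `g` to
the C*-algebra `D`. -/
def BelowNormsFrom (m : A ⊗[ℂ] Z →⋆ₐ[ℂ] B) (D : Type u) [CStarAlgebra D] : Prop :=
  ∀ g : A ⊗[ℂ] Z →⋆ₐ[ℂ] D, Function.Injective g → ∀ t, ‖m t‖ ≤ ‖g t‖

/-- `B`, with the map `m` from the algebraic tensor product, is the minimal tensor product of `A` and
`Z`: the completion of `A ⊗ Z` in its smallest C*-norm. -/
structure IsMinTensor (m : A ⊗[ℂ] Z →⋆ₐ[ℂ] B) : Prop where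
  injective : Function.Injective m
  dense : DenseRange m
  minimal : ∀ (D : Type u) [CStarAlgebra D], BelowNormsFrom m D

/-- All C*-norms on `Z ⊗ B` that come from `C` are at most all C*-norms that come from `D`. -/
def SameNorms (Z B C D : Type u) [CStarAlgebra Z] [CStarAlgebra B] [CStarAlgebra C]
    [CStarAlgebra D] : Prop :=
  ∀ f : Z ⊗[ℂ] B →⋆ₐ[ℂ] C, Function.Injective f → BelowNormsFrom f D

/-- Nuclearity: for every (unital) C*-algebra `B` there is only one C*-norm on `Z ⊗ B`. -/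
def IsNuclear (Z : Type u) [CStarAlgebra Z] : Prop :=
  ∀ (B C D : Type u) [CStarAlgebra B] [CStarAlgebra C] [CStarAlgebra D], SameNorms Z B C D

/-- The *-isomorphism `φ` from `Z` onto the minimal tensor product `T` of `Z` with itself is
approximately unitarily equivalent to the first factor embedding `z ↦ m(z ⊗ 1)`. -/
structure IsAlmostFirst {T : Type u} [CStarAlgebra T] (m : Z ⊗[ℂ] Z →⋆ₐ[ℂ] T) (φ : Z ≃⋆ₐ[ℂ] T) :
    Prop where
  tensor : IsMinTensor m
  approx : ∀ (S : Finset Z) (ε : ℝ), 0 < ε → ∃ u ∈ unitary T, ∀ z ∈ S,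
    ‖u * φ z * star u - m (z ⊗ₜ 1)‖ < ε

/-- there are such `m` and `φ` -/
def HasAlmostFirst (Z T : Type u) [CStarAlgebra Z] [CStarAlgebra T] : Prop :=
  ∃ (m : Z ⊗[ℂ] Z →⋆ₐ[ℂ] T) (φ : Z ≃⋆ₐ[ℂ] T), IsAlmostFirst m φ

/-- `Z` is strongly self-absorbing (Toms-Winter): there is a *-isomorphism from `Z` onto the minimal
tensor product `Z ⊗ Z` that is approximately unitarily equivalent to `z ↦ z ⊗ 1`. -/
def StronglySelfAbsorbing (Z : Type u) [CStarAlgebra Z] : Prop :=
  ∃ (T : Type u) (_ : CStarAlgebra T), HasAlmostFirst Z T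

end Tensor

section JiangSu

variable {Z : Type u} [CStarAlgebra Z]

/-- `f` is an element of the dimension drop algebra `I(p, q)`: a continuous function from `[0, 1]`
to `M_p ⊗ M_q` (matrices indexed by pairs) with `f(0) ∈ M_p ⊗ 1` and `f(1) ∈ 1 ⊗ M_q`. -/
def InDrop (p q : ℕ) (f : unitInterval → Matrix (Fin p × Fin q) (Fin p × Fin q) ℂ) : Prop :=
  Continuous f ∧
    (∃ a : Matrix (Fin p) (Fin p) ℂ, f 0 = Matrix.kroneckerMap (fun s t => s * t) a 1) ∧
    (∃ b : Matrix (Fin q) (Fin q) ℂ, f 1 = Matrix.kroneckerMap (fun s t => s * t) 1 b)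

/-- `R` is a closed *-subalgebra of `Z` containing `1`, and `j` restricts to a *-isomorphism from
`I(p, q)` onto `R`. -/
structure IsDropIso (p q : ℕ) (R : Set Z)
    (j : (unitInterval → Matrix (Fin p × Fin q) (Fin p × Fin q) ℂ) → Z) : Prop where
  isClosed : IsClosed R
  range : ∀ z, z ∈ R ↔ ∃ f, InDrop p q f ∧ j f = z
  map_add : ∀ f g, InDrop p q f → InDrop p q g → j (f + g) = j f + j g
  map_smul : ∀ (c : ℂ) f, InDrop p q f → j (c • f) = c • j f
  map_mul : ∀ f g, InDrop p q f → InDrop p q g → j (f * g) = j f * j g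
  map_star : ∀ f, InDrop p q f → j (star f) = star (j f)
  map_one : j 1 = 1
  injective : ∀ f g, InDrop p q f → InDrop p q g → j f = j g → f = g

/-- A tracial state. -/
structure IsTracialState (τ : Z →ₗ[ℂ] ℂ) : Prop where
  map_one : τ 1 = 1
  nonneg : ∀ x, 0 ≤ (τ (star x * x)).re ∧ (τ (star x * x)).im = 0
  trace : ∀ x y, τ (x * y) = τ (y * x)

/-- `Z` is (a copy of) the Jiang-Su algebra.  All these properties are proved for it in the paper of
Jiang and Su (1999), and they determine it up to isomorphism.  (`limit`: `Z` is the closure of the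
union of an increasing sequence of copies of prime dimension drop algebras.) -/
structure IsJiangSu (Z : Type u) [CStarAlgebra Z] : Prop where
  simple : IsSimpleRing Z
  separable : TopologicalSpace.SeparableSpace Z
  nuclear : IsNuclear Z
  infiniteDimensional : ¬ FiniteDimensional ℂ Z
  uniqueTrace : ∃! τ : Z →ₗ[ℂ] ℂ, IsTracialState τ
  limit : ∃ R : ℕ → Set Z,
    (∀ k, ∃ p q : ℕ, 1 ≤ p ∧ 1 ≤ q ∧ Nat.Coprime p q ∧ ∃ j, IsDropIso p q (R k) j) ∧
    (∀ k, R k ⊆ R (k + 1)) ∧ Dense (⋃ k, R k)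
  selfAbsorbing : StronglySelfAbsorbing Z

end JiangSu

end P101C
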