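import Mathlib
import Vale.Agent.Lib.P101C.Defs
import Vale.Agent.Lib.P101B.Flip

/-!
# Comparison with the definitions of `P101`
-/

open scoped ENNReal Topology TensorProduct BoundedContinuousFunction
open Filter Matrix

namespace P101C

universe u

section Transfer

variable {A : Type u} [CStarAlgebra A]

theorem isCharacter_iff {ω : Ultrafilter ℕ} {χ : (ℕ →ᵇ A) → ℂ} :
    IsCharacter ω χ ↔ P101B.IsCharacter ω χ :=
  ⟨fun h => ⟨h.map_add, h.map_smul, h.map_mul, h.map_star, h.map_one, h.map_null⟩,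
    fun h => ⟨h.map_add, h.map_smul, h.map_mul, h.map_star, h.map_one, h.map_null⟩⟩

theorem noCharacters_iff (ω : Ultrafilter ℕ) [Nontrivial A] :
    (¬ ∃ χ : (ℕ →ᵇ A) → ℂ, IsCharacter ω χ) ↔ IsEmpty (P101.FOmega ω A →⋆ₐ[ℂ] ℂ) := by
  rw [← P101B.noCharacters_iff]
  exact not_congr (exists_congr fun χ => isCharacter_iff)

theorem isLimit_of {Z : Type u} [CStarAlgebra Z]
    (h : ∃ R : ℕ → Set Z,
      (∀ k, ∃ p q : ℕ, 1 ≤ p ∧ 1 ≤ q ∧ Nat.Coprime p q ∧ ∃ j, IsDropIso p q (R k) j) ∧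
      (∀ k, R k ⊆ R (k + 1)) ∧ Dense (⋃ k, R k)) : P101.IsLimitOfPrimeDimDrops Z := by
  obtain ⟨R, h1, h2, h3⟩ := h
  refine P101B.isLimit_of ⟨R, fun k => ?_, h2, h3⟩
  obtain ⟨p, q, hp, hq, hpq, j, hj⟩ := h1 k
  exact ⟨p, q, hp, hq, hpq, hj.isClosed, j, ⟨hj.map_add, hj.map_smul, hj.map_mul, hj.map_star,
    hj.map_one, hj.injective⟩, hj.range⟩

end Transfer

section Flip

/-- extension of a *-homomorphism by continuity -/
theorem exists_lift {X : Type u} [Ring X] [StarRing X] [Algebra ℂ X] [StarModule ℂ X]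
    {T C : Type u} [CStarAlgebra T] [CStarAlgebra C]
    (m : X →⋆ₐ[ℂ] T) (hm : DenseRange m) (μ : X →⋆ₐ[ℂ] C) (h : ∀ t, ‖μ t‖ ≤ ‖m t‖) :
    ∃ Θ : T →⋆ₐ[ℂ] C, (∀ t, Θ (m t) = μ t) ∧ ∀ x, Θ x ∈ closure (Set.range μ) := by
  let Φ : X →⋆ₐ[ℂ] T × C := m.prod μ
  let F : StarSubalgebra ℂ (T × C) := Φ.range.topologicalClosure
  have hF : ∀ e ∈ F, ‖e.2‖ ≤ ‖e.1‖ := by
    intro e he
    have h1 : (F : Set (T × C)) ⊆ {e | ‖e.2‖ ≤ ‖e.1‖} := by
      refine closure_minimal ?_ (isClosed_le (by fun_prop) (by fun_prop))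
      rintro _ ⟨t, rfl⟩
      exact h t
    exact h1 he
  have hF2 : ∀ e ∈ F, e.2 ∈ closure (Set.range μ) := by
    intro e he
    have h1 : (F : Set (T × C)) ⊆ {e | e.2 ∈ closure (Set.range μ)} := by
      refine closure_minimal ?_ (isClosed_closure.preimage continuous_snd)
      rintro _ ⟨t, rfl⟩
      exact subset_closure ⟨t, rfl⟩
    exact h1 he
  have hΦF : ∀ t, Φ t ∈ F := fun t => StarSubalgebra.le_topologicalClosure _ ⟨t, rfl⟩
  let f1 : F →⋆ₐ[ℂ] T := (StarAlgHom.fst ℂ T C).comp F.subtype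
  let f2 : F →⋆ₐ[ℂ] C := (StarAlgHom.snd ℂ T C).comp F.subtype
  have hex : ∀ d : T, ∃ v : C, (d, v) ∈ F := by
    intro d
    obtain ⟨x, hx, hxd⟩ := mem_closure_iff_seq_limit.1 (hm d)
    choose t ht using hx
    have hc : CauchySeq fun n => m (t n) := by
      have : (fun n => m (t n)) = x := funext ht
      rw [this]
      exact hxd.cauchySeq
    have hc' : CauchySeq fun n => μ (t n) := by
      rw [Metric.cauchySeq_iff] at hc ⊢
      intro δ hδ
      obtain ⟨N, hN⟩ := hc δ hδ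
      refine ⟨N, fun k hk l hl => ?_⟩
      refine lt_of_le_of_lt ?_ (hN k hk l hl)
      rw [dist_eq_norm, dist_eq_norm, ← map_sub, ← map_sub]
      exact h _
    obtain ⟨v, hv⟩ := cauchySeq_tendsto_of_complete hc'
    refine ⟨v, ?_⟩
    have h2 : Tendsto (fun n => Φ (t n)) atTop (𝓝 (d, v)) := by
      have h3 : Tendsto (fun n => m (t n)) atTop (𝓝 d) := by
        have : (fun n => m (t n)) = x := funext ht
        rw [this]
        exact hxd
      exact h3.prodMk_nhds hv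
    exact (StarSubalgebra.isClosed_topologicalClosure _).mem_of_tendsto h2
      (Eventually.of_forall fun n => hΦF _)
  have hbij : Function.Bijective f1 := by
    constructor
    · rw [injective_iff_map_eq_zero]
      rintro ⟨⟨a, b⟩, hab⟩ h0
      have ha : a = 0 := h0
      have hb : ‖b‖ ≤ ‖a‖ := hF _ hab
      rw [ha, norm_zero, norm_le_zero_iff] at hb
      apply Subtype.ext
      exact Prod.ext ha hb
    · intro d
      obtain ⟨v, hv⟩ := hex d
      exact ⟨⟨(d, v), hv⟩, rfl⟩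
  let e : F ≃⋆ₐ[ℂ] T := StarAlgEquiv.ofBijective f1 hbij
  refine ⟨f2.comp (e.symm : T →⋆ₐ[ℂ] F), fun t => ?_, fun x => ?_⟩
  · have h1 : e ⟨Φ t, hΦF t⟩ = m t := rfl
    have h2 : e.symm (m t) = ⟨Φ t, hΦF t⟩ := by
      rw [← h1]
      exact e.symm_apply_apply _
    change f2 (e.symm (m t)) = μ t
    rw [h2]
    rfl
  · exact hF2 _ (e.symm x).2

end Flip

end P101C
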