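import Mathlib
import Vale.Agent.Lib.P101C.Bridge

/-!
# Strongly self-absorbing algebras have approximately inner half flip
-/

open scoped ENNReal Topology TensorProduct BoundedContinuousFunction
open Filter Matrix

namespace P101C

universe u

variable {A Z B T C : Type u} [CStarAlgebra A] [CStarAlgebra Z] [CStarAlgebra B] [CStarAlgebra T]
  [CStarAlgebra C]

/-- `a ↦ m(a ⊗ 1)` -/
noncomputable def inclL (m : A ⊗[ℂ] Z →⋆ₐ[ℂ] B) : A →⋆ₐ[ℂ] B where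
  toFun := fun a => m (a ⊗ₜ 1)
  map_one' := map_one m
  map_mul' := fun x y => by
    rw [← map_mul, Algebra.TensorProduct.tmul_mul_tmul, mul_one]
  map_zero' := by rw [TensorProduct.zero_tmul, map_zero]
  map_add' := fun x y => by rw [TensorProduct.add_tmul, map_add]
  commutes' := fun r => by
    rw [← AlgHomClass.commutes m r, Algebra.TensorProduct.algebraMap_apply]
  map_star' := fun x => by
    rw [← map_star, TensorProduct.star_tmul, star_one]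

/-- `z ↦ m(1 ⊗ z)` -/
noncomputable def inclR (m : A ⊗[ℂ] Z →⋆ₐ[ℂ] B) : Z →⋆ₐ[ℂ] B where
  toFun := fun z => m (1 ⊗ₜ z)
  map_one' := map_one m
  map_mul' := fun x y => by
    rw [← map_mul, Algebra.TensorProduct.tmul_mul_tmul, mul_one]
  map_zero' := by rw [TensorProduct.tmul_zero, map_zero]
  map_add' := fun x y => by rw [TensorProduct.tmul_add, map_add]
  commutes' := fun r => by
    rw [← AlgHomClass.commutes m r, Algebra.TensorProduct.algebraMap_apply']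
  map_star' := fun x => by
    rw [← map_star, TensorProduct.star_tmul, star_one]

theorem inclL_apply (m : A ⊗[ℂ] Z →⋆ₐ[ℂ] B) (a : A) : inclL m a = m (a ⊗ₜ 1) := rfl
theorem inclR_apply (m : A ⊗[ℂ] Z →⋆ₐ[ℂ] B) (z : Z) : inclR m z = m (1 ⊗ₜ z) := rfl

theorem inclL_mul_inclR (m : A ⊗[ℂ] Z →⋆ₐ[ℂ] B) (a : A) (z : Z) :
    inclL m a * inclR m z = m (a ⊗ₜ z) := by
  rw [inclL_apply, inclR_apply, ← map_mul, Algebra.TensorProduct.tmul_mul_tmul, mul_one, one_mul]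

theorem inclR_mul_inclL (m : A ⊗[ℂ] Z →⋆ₐ[ℂ] B) (a : A) (z : Z) :
    inclR m z * inclL m a = m (a ⊗ₜ z) := by
  rw [inclL_apply, inclR_apply, ← map_mul, Algebra.TensorProduct.tmul_mul_tmul, mul_one, one_mul]

theorem commute_incl (m : A ⊗[ℂ] Z →⋆ₐ[ℂ] B) (a : A) (z : Z) :
    Commute (inclL m a) (inclR m z) := by
  rw [commute_iff_eq, inclL_mul_inclR, inclR_mul_inclL]

theorem norm_le_of_nuclear (hn : IsNuclear Z) (m : Z ⊗[ℂ] B →⋆ₐ[ℂ] T)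
    (hm : Function.Injective m) (μ : Z ⊗[ℂ] B →⋆ₐ[ℂ] C) (t : Z ⊗[ℂ] B) : ‖μ t‖ ≤ ‖m t‖ := by
  let Φ : Z ⊗[ℂ] B →⋆ₐ[ℂ] T × C := m.prod μ
  have hΦ : Function.Injective Φ := fun s t h => hm (congrArg Prod.fst h)
  exact (norm_snd_le (Φ t)).trans (hn B (T × C) T Φ hΦ m hm t)

theorem exists_pair (hn : IsNuclear Z) (m : Z ⊗[ℂ] Z →⋆ₐ[ℂ] T) (hm : IsMinTensor m)
    (α β : Z →⋆ₐ[ℂ] C) (h : ∀ x y, Commute (α x) (β y)) :
    ∃ Θ : T →⋆ₐ[ℂ] C, (∀ x y, Θ (m (x ⊗ₜ y)) = α x * β y) ∧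
      ∀ x, Θ x ∈ (StarAlgebra.adjoin ℂ (Set.range α ∪ Set.range β)).topologicalClosure := by
  let μ : Z ⊗[ℂ] Z →⋆ₐ[ℂ] C := P101B.prodHom α β h
  obtain ⟨Θ, h1, h2⟩ := exists_lift m hm.dense μ fun t => norm_le_of_nuclear hn m hm.injective μ t
  refine ⟨Θ, fun x y => ?_, fun x => ?_⟩
  · rw [h1]
    exact P101B.prodHom_tmul α β h x y
  · have h3 : Set.range μ ⊆ (StarAlgebra.adjoin ℂ (Set.range α ∪ Set.range β) : Set C) := by
      rintro _ ⟨s, rfl⟩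
      induction s using TensorProduct.induction_on with
      | zero => rw [map_zero]; exact zero_mem _
      | add s t hs ht => rw [map_add]; exact add_mem hs ht
      | tmul a b =>
        rw [show μ (a ⊗ₜ b) = α a * β b from P101B.prodHom_tmul α β h a b]
        exact mul_mem (StarAlgebra.subset_adjoin ℂ _ (Or.inl ⟨a, rfl⟩))
          (StarAlgebra.subset_adjoin ℂ _ (Or.inr ⟨b, rfl⟩))
    exact closure_mono h3 (h2 x)

theorem unitary_map {u : T} (hu : u ∈ unitary T) (f : T →⋆ₐ[ℂ] C) : f u ∈ unitary C := by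
  rw [Unitary.mem_iff] at hu ⊢
  rw [← map_star, ← map_mul, ← map_mul, hu.1, hu.2, map_one]
  exact ⟨rfl, rfl⟩

theorem norm_map_le (f : T →⋆ₐ[ℂ] C) (x : T) : ‖f x‖ ≤ ‖x‖ := NonUnitalStarAlgHom.norm_apply_le f x

theorem norm_conj (u : C) (hu : u ∈ unitary C) (x : C) : ‖u * x * star u‖ = ‖x‖ := by
  rw [CStarRing.norm_mul_mem_unitary _ (Unitary.star_mem hu), CStarRing.norm_mem_unitary_mul _ hu]

theorem approxInnerHalfFlip (hn : IsNuclear Z) (hs : StronglySelfAbsorbing Z) :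
    P101.ApproxInnerHalfFlip Z := by
  obtain ⟨T, _, m, φ, hm, hφ⟩ := hs
  intro C _ α β hαβ S ε hε
  classical
  let ψ : T →⋆ₐ[ℂ] Z := (φ.symm : T →⋆ₐ[ℂ] Z)
  have hψφ : ∀ z, ψ (φ z) = z := fun z => φ.symm_apply_apply z
  have hφψ : ∀ t, φ (ψ t) = t := fun t => φ.apply_symm_apply t
  let α₁ : Z →⋆ₐ[ℂ] C := (α.comp ψ).comp (inclL m)
  let α₂ : Z →⋆ₐ[ℂ] C := (α.comp ψ).comp (inclR m)
  have hc21 : ∀ x y, Commute (α₂ x) (α₁ y) := fun x y =>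
    ((commute_incl m y x).map (α.comp ψ)).symm
  have hc23 : ∀ x y, Commute (α₂ x) (β y) := fun x y => hαβ _ _
  obtain ⟨Θ₁, hΘ₁, hΘ₁'⟩ := exists_pair hn m hm α₂ α₁ hc21
  obtain ⟨Θ₃, hΘ₃, hΘ₃'⟩ := exists_pair hn m hm α₂ β hc23
  have hε' : 0 < ε / 3 := by positivity
  obtain ⟨u, hu, hu'⟩ := hφ S (ε / 3) hε'
  obtain ⟨v, hv, hv'⟩ := hφ (S.image fun z => ψ (m (1 ⊗ₜ z))) (ε / 3) hε'
  have hle : (StarAlgebra.adjoin ℂ (Set.range α₂ ∪ Set.range α₁)).topologicalClosure ≤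
      (StarAlgebra.adjoin ℂ (Set.range α ∪ Set.range β)).topologicalClosure := by
    refine StarSubalgebra.topologicalClosure_mono (StarAlgebra.adjoin_le ?_)
    rintro _ (⟨z, rfl⟩ | ⟨z, rfl⟩) <;>
      exact StarAlgebra.subset_adjoin ℂ _ (Or.inl ⟨_, rfl⟩)
  have hle' : (StarAlgebra.adjoin ℂ (Set.range α₂ ∪ Set.range β)).topologicalClosure ≤
      (StarAlgebra.adjoin ℂ (Set.range α ∪ Set.range β)).topologicalClosure := by
    refine StarSubalgebra.topologicalClosure_mono (StarAlgebra.adjoin_le ?_)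
    rintro _ (⟨z, rfl⟩ | ⟨z, rfl⟩)
    · exact StarAlgebra.subset_adjoin ℂ _ (Or.inl ⟨_, rfl⟩)
    · exact StarAlgebra.subset_adjoin ℂ _ (Or.inr ⟨_, rfl⟩)
  have hwu : α (ψ u) ∈ unitary C := unitary_map hu (α.comp ψ)
  have hw₁ : Θ₁ v ∈ unitary C := unitary_map hv Θ₁
  have hw₃ : Θ₃ v ∈ unitary C := unitary_map hv Θ₃
  refine ⟨star (Θ₃ v) * Θ₁ v * α (ψ u), ?_, ?_, fun z hz => ?_⟩
  · refine mul_mem (mul_mem (star_mem (hle' (hΘ₃' v))) (hle (hΘ₁' v)))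
      (StarSubalgebra.le_topologicalClosure _
        (StarAlgebra.subset_adjoin ℂ _ (Or.inl ⟨_, rfl⟩)))
  · exact mul_mem (mul_mem (Unitary.star_mem hw₃) hw₁) hwu
  · have h1 : ‖α (ψ u) * α z * star (α (ψ u)) - α₁ z‖ < ε / 3 := by
      have e : α (ψ u) * α z * star (α (ψ u)) - α₁ z =
          (α.comp ψ) (u * φ z * star u - m (z ⊗ₜ 1)) := by
        rw [map_sub, map_mul, map_mul, map_star]
        change _ = α (ψ u) * α (ψ (φ z)) * star (α (ψ u)) - α₁ z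
        rw [hψφ]
      rw [e]
      exact (norm_map_le _ _).trans_lt (hu' z hz)
    have hb := hv' _ (Finset.mem_image_of_mem (fun z => ψ (m (1 ⊗ₜ z))) hz)
    rw [hφψ] at hb
    have h2 : ‖Θ₁ v * α₁ z * star (Θ₁ v) - α₂ (ψ (m (1 ⊗ₜ z)))‖ < ε / 3 := by
      have e : Θ₁ v * α₁ z * star (Θ₁ v) - α₂ (ψ (m (1 ⊗ₜ z))) =
          Θ₁ (v * m (1 ⊗ₜ z) * star v - m (ψ (m (1 ⊗ₜ z)) ⊗ₜ 1)) := by
        rw [map_sub, map_mul, map_mul, map_star, hΘ₁, hΘ₁, map_one, map_one, one_mul, mul_one]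
      rw [e]
      exact (norm_map_le _ _).trans_lt hb
    have h3 : ‖Θ₃ v * β z * star (Θ₃ v) - α₂ (ψ (m (1 ⊗ₜ z)))‖ < ε / 3 := by
      have e : Θ₃ v * β z * star (Θ₃ v) - α₂ (ψ (m (1 ⊗ₜ z))) =
          Θ₃ (v * m (1 ⊗ₜ z) * star v - m (ψ (m (1 ⊗ₜ z)) ⊗ₜ 1)) := by
        rw [map_sub, map_mul, map_mul, map_star, hΘ₃, hΘ₃, map_one, map_one, one_mul, mul_one]
      rw [e]
      exact (norm_map_le _ _).trans_lt hb
    obtain ⟨w, hw⟩ : ∃ w, w = star (Θ₃ v) * Θ₁ v := ⟨_, rfl⟩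
    have hwU : w ∈ unitary C := by
      rw [hw]
      exact mul_mem (Unitary.star_mem hw₃) hw₁
    have h33 : star (Θ₃ v) * Θ₃ v = 1 := Unitary.star_mul_self_of_mem hw₃
    have e : star (Θ₃ v) * Θ₁ v * α (ψ u) * α z * star (star (Θ₃ v) * Θ₁ v * α (ψ u)) - β z =
        w * (α (ψ u) * α z * star (α (ψ u)) - α₁ z) * star w +
        star (Θ₃ v) * (Θ₁ v * α₁ z * star (Θ₁ v) - α₂ (ψ (m (1 ⊗ₜ z)))) * star (star (Θ₃ v)) -
        star (Θ₃ v) * (Θ₃ v * β z * star (Θ₃ v) - α₂ (ψ (m (1 ⊗ₜ z)))) * star (star (Θ₃ v)) := by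
      have e1 : star (Θ₃ v) * (Θ₃ v * β z * star (Θ₃ v)) * star (star (Θ₃ v)) = β z := by
        rw [star_star]
        calc star (Θ₃ v) * (Θ₃ v * β z * star (Θ₃ v)) * Θ₃ v
            = (star (Θ₃ v) * Θ₃ v) * β z * (star (Θ₃ v) * Θ₃ v) := by noncomm_ring
          _ = β z := by rw [h33, one_mul, mul_one]
      rw [mul_sub (star (Θ₃ v)) (Θ₃ v * β z * star (Θ₃ v)), sub_mul, e1, hw]
      simp only [star_mul, star_star]
      noncomm_ring
    rw [e]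
    have hs3 : star (Θ₃ v) ∈ unitary C := Unitary.star_mem hw₃
    calc _ ≤ ‖w * (α (ψ u) * α z * star (α (ψ u)) - α₁ z) * star w‖ +
          ‖star (Θ₃ v) * (Θ₁ v * α₁ z * star (Θ₁ v) - α₂ (ψ (m (1 ⊗ₜ z)))) *
            star (star (Θ₃ v))‖ +
          ‖star (Θ₃ v) * (Θ₃ v * β z * star (Θ₃ v) - α₂ (ψ (m (1 ⊗ₜ z)))) *
            star (star (Θ₃ v))‖ :=
          (norm_sub_le _ _).trans (add_le_add (norm_add_le _ _) le_rfl)
      _ < ε / 3 + ε / 3 + ε / 3 := by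
          rw [norm_conj w hwU, norm_conj _ hs3, norm_conj _ hs3]
          exact add_lt_add (add_lt_add h1 h2) h3
      _ = ε := by ring

end P101C
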