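import Mathlib
import Vale.Agent.Lib.P101C.Flip

/-!
# The converse: a `Z`-absorbing algebra has no characters on its central sequence algebra
-/

open scoped ENNReal Topology TensorProduct BoundedContinuousFunction
open Filter Matrix

namespace P101C

universe u

variable {A Z B T C : Type u} [CStarAlgebra A] [CStarAlgebra Z] [CStarAlgebra B] [CStarAlgebra T]
  [CStarAlgebra C]

/-- `x ↦ u* x u` -/
noncomputable def conjHom (u : T) (hu : u ∈ unitary T) : T →⋆ₐ[ℂ] T where
  toFun x := star u * x * u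
  map_one' := by rw [mul_one, Unitary.star_mul_self_of_mem hu]
  map_mul' x y := by
    have h : u * star u = 1 := Unitary.mul_star_self_of_mem hu
    calc star u * (x * y) * u = star u * x * 1 * y * u := by noncomm_ring
      _ = star u * x * u * (star u * y * u) := by rw [← h]; noncomm_ring
  map_zero' := by rw [mul_zero, zero_mul]
  map_add' x y := by rw [mul_add, add_mul]
  commutes' r := by
    rw [Algebra.algebraMap_eq_smul_one, mul_smul_comm, smul_mul_assoc, mul_one,
      Unitary.star_mul_self_of_mem hu]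
  map_star' x := by rw [star_mul, star_mul, star_star, mul_assoc]

theorem exists_unitaries [TopologicalSpace.SeparableSpace Z] {m : Z ⊗[ℂ] Z →⋆ₐ[ℂ] T}
    {φ : Z ≃⋆ₐ[ℂ] T} (h' : IsAlmostFirst m φ) :
    ∃ u : ℕ → T, (∀ k, u k ∈ unitary T) ∧ ∀ z : Z,
      Tendsto (fun k => ‖u k * φ z * star (u k) - m (z ⊗ₜ 1)‖) atTop (𝓝 0) := by
  classical
  have h := h'.approx
  let d : ℕ → Z := TopologicalSpace.denseSeq Z
  have hd : DenseRange d := TopologicalSpace.denseRange_denseSeq Z
  choose u hu hu' using fun k : ℕ => h ((Finset.range (k + 1)).image d) (1 / ((k : ℝ) + 1))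
    (by positivity)
  refine ⟨u, hu, fun z => ?_⟩
  rw [Metric.tendsto_atTop]
  intro ε hε
  obtain ⟨i, hi⟩ := hd.exists_dist_lt z (show 0 < ε / 4 by positivity)
  rw [dist_eq_norm] at hi
  obtain ⟨N, hN⟩ := exists_nat_one_div_lt (show 0 < ε / 4 by positivity)
  refine ⟨max i N, fun k hk => ?_⟩
  have hik : i ≤ k := (le_max_left _ _).trans hk
  have hNk : N ≤ k := (le_max_right _ _).trans hk
  have h1 := hu' k (d i) (Finset.mem_image_of_mem d (Finset.mem_range.2 (by omega)))
  have h2 : 1 / ((k : ℝ) + 1) ≤ 1 / ((N : ℝ) + 1) :=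
    one_div_le_one_div_of_le (by positivity) (by
      have : (N : ℝ) ≤ k := by exact_mod_cast hNk
      linarith)
  have e : u k * φ z * star (u k) - m (z ⊗ₜ 1) =
      u k * φ (z - d i) * star (u k) + (u k * φ (d i) * star (u k) - m (d i ⊗ₜ 1)) -
        inclL m (z - d i) := by
    rw [map_sub (inclL m), map_sub φ, inclL_apply, inclL_apply]
    noncomm_ring
  have h3 : ‖u k * φ (z - d i) * star (u k)‖ < ε / 4 := by
    rw [norm_conj _ (hu k)]
    exact (norm_map_le (φ : Z →⋆ₐ[ℂ] T) _).trans_lt hi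
  have h4 : ‖inclL m (z - d i)‖ < ε / 4 := (norm_map_le _ _).trans_lt hi
  rw [dist_zero_right, norm_norm, e]
  calc _ ≤ ‖u k * φ (z - d i) * star (u k)‖ + ‖u k * φ (d i) * star (u k) - m (d i ⊗ₜ 1)‖ +
        ‖inclL m (z - d i)‖ := (norm_sub_le _ _).trans (add_le_add (norm_add_le _ _) le_rfl)
    _ < ε / 4 + ε / 4 + ε / 4 := by
        refine add_lt_add (add_lt_add h3 (h1.trans_le (h2.trans hN.le))) h4
    _ ≤ ε := by linarith

/-- asymptotically central endomorphisms of `Z` -/
theorem exists_asympt_central [TopologicalSpace.SeparableSpace Z]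
    (hs : StronglySelfAbsorbing Z) :
    ∃ y : ℕ → (Z →⋆ₐ[ℂ] Z), ∀ z s : Z,
      Tendsto (fun k => ‖y k z * s - s * y k z‖) atTop (𝓝 0) := by
  obtain ⟨T, _, m, φ, hmφ⟩ := hs
  obtain ⟨u, hu, hu'⟩ := exists_unitaries hmφ
  let ψ : T →⋆ₐ[ℂ] Z := (φ.symm : T →⋆ₐ[ℂ] Z)
  have hψφ : ∀ z, ψ (φ z) = z := fun z => φ.symm_apply_apply z
  refine ⟨fun k => (ψ.comp (conjHom (u k) (hu k))).comp (inclR m), fun z s => ?_⟩
  have key : ∀ k, ‖((ψ.comp (conjHom (u k) (hu k))).comp (inclR m)) z * s -
      s * ((ψ.comp (conjHom (u k) (hu k))).comp (inclR m)) z‖ ≤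
      2 * ‖inclR m z‖ * ‖u k * φ s * star (u k) - m (s ⊗ₜ 1)‖ := by
    intro k
    obtain ⟨M, hM⟩ : ∃ M, M = inclR m z := ⟨_, rfl⟩
    obtain ⟨D, hD⟩ : ∃ D, D = u k * φ s * star (u k) - m (s ⊗ₜ 1) := ⟨_, rfl⟩
    have hcomm : M * m (s ⊗ₜ 1) = m (s ⊗ₜ 1) * M := by
      rw [hM]
      exact (commute_incl m s z).symm
    have huu : star (u k) * u k = 1 := Unitary.star_mul_self_of_mem (hu k)
    have huu' : u k * star (u k) = 1 := Unitary.mul_star_self_of_mem (hu k)
    have e : ((ψ.comp (conjHom (u k) (hu k))).comp (inclR m)) z * s -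
        s * ((ψ.comp (conjHom (u k) (hu k))).comp (inclR m)) z =
        ψ (star (u k) * (M * D - D * M) * star (star (u k))) := by
      have e1 : star (u k) * (M * D - D * M) * star (star (u k)) =
          (star (u k) * M * u k) * φ s - φ s * (star (u k) * M * u k) := by
        have e2 : M * D - D * M = M * (u k * φ s * star (u k)) - (u k * φ s * star (u k)) * M := by
          rw [hD, mul_sub, sub_mul, hcomm]
          abel
        rw [e2, star_star]
        calc star (u k) * (M * (u k * φ s * star (u k)) - u k * φ s * star (u k) * M) * u k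
            = (star (u k) * M * u k) * φ s * (star (u k) * u k) -
              (star (u k) * u k) * φ s * (star (u k) * M * u k) := by noncomm_ring
          _ = _ := by rw [huu, mul_one, one_mul]
      rw [e1, map_sub, map_mul ψ _ (φ s), map_mul ψ (φ s), hψφ, hM]
      rfl
    rw [e, ← hD, ← hM]
    calc _ ≤ ‖star (u k) * (M * D - D * M) * star (star (u k))‖ := norm_map_le _ _
      _ = ‖M * D - D * M‖ := norm_conj _ (Unitary.star_mem (hu k)) _
      _ ≤ ‖M‖ * ‖D‖ + ‖D‖ * ‖M‖ := (norm_sub_le _ _).trans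
          (add_le_add (norm_mul_le _ _) (norm_mul_le _ _))
      _ = 2 * ‖M‖ * ‖D‖ := by ring
  refine squeeze_zero (fun k => norm_nonneg _) key ?_
  have := (hu' s).const_mul (2 * ‖inclR m z‖)
  rwa [mul_zero] at this

theorem exists_hom_central (ω : Ultrafilter ℕ) (hω : (ω : Filter ℕ) ≤ cofinite)
    [TopologicalSpace.SeparableSpace Z] (hs : StronglySelfAbsorbing Z) (m : A ⊗[ℂ] Z →⋆ₐ[ℂ] B)
    (hm : DenseRange m) (e : A ≃⋆ₐ[ℂ] B) :
    ∃ Θ : Z →⋆ₐ[ℂ] (ℕ →ᵇ A), ∀ z, IsCentral ω (Θ z) := by
  obtain ⟨y, hy⟩ := exists_asympt_central hs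
  have hB : ∀ (z : Z) (b : B),
      Tendsto (fun k => ‖inclR m (y k z) * b - b * inclR m (y k z)‖) atTop (𝓝 0) := by
    intro z
    have h1 : ∀ t : A ⊗[ℂ] Z,
        Tendsto (fun k => ‖inclR m (y k z) * m t - m t * inclR m (y k z)‖) atTop (𝓝 0) := by
      intro t
      induction t using TensorProduct.induction_on with
      | zero => simp
      | tmul a s =>
        have h2 : ∀ k, ‖inclR m (y k z) * m (a ⊗ₜ s) - m (a ⊗ₜ s) * inclR m (y k z)‖ ≤
            ‖inclL m a‖ * ‖y k z * s - s * y k z‖ := by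
          intro k
          have e1 : inclR m (y k z) * m (a ⊗ₜ s) - m (a ⊗ₜ s) * inclR m (y k z) =
              inclL m a * inclR m (y k z * s - s * y k z) := by
            have hc := (commute_incl m a (y k z)).eq
            rw [← inclL_mul_inclR, ← mul_assoc, ← hc, map_sub, map_mul, map_mul]
            noncomm_ring
          rw [e1]
          exact (norm_mul_le _ _).trans
            (mul_le_mul_of_nonneg_left (norm_map_le _ _) (norm_nonneg _))
        refine squeeze_zero (fun k => norm_nonneg _) h2 ?_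
        have := (hy z s).const_mul ‖inclL m a‖
        rwa [mul_zero] at this
      | add s t hs ht =>
        refine squeeze_zero (fun k => norm_nonneg _) (fun k => ?_) (by simpa using hs.add ht)
        have e1 : inclR m (y k z) * m (s + t) - m (s + t) * inclR m (y k z) =
            (inclR m (y k z) * m s - m s * inclR m (y k z)) +
              (inclR m (y k z) * m t - m t * inclR m (y k z)) := by
          rw [map_add]
          noncomm_ring
        rw [e1]
        exact norm_add_le _ _
    intro b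
    rw [Metric.tendsto_atTop]
    intro ε hε
    obtain ⟨t, ht⟩ := hm.exists_dist_lt b (show 0 < ε / (4 * (‖z‖ + 1)) by positivity)
    rw [dist_eq_norm] at ht
    obtain ⟨N, hN⟩ := Metric.tendsto_atTop.1 (h1 t) (ε / 2) (by positivity)
    refine ⟨N, fun k hk => ?_⟩
    have h3 := hN k hk
    rw [dist_zero_right, norm_norm] at h3 ⊢
    have hn : ‖inclR m (y k z)‖ ≤ ‖z‖ := (norm_map_le _ _).trans (norm_map_le _ _)
    have e1 : inclR m (y k z) * b - b * inclR m (y k z) =
        (inclR m (y k z) * m t - m t * inclR m (y k z)) +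
          (inclR m (y k z) * (b - m t) - (b - m t) * inclR m (y k z)) := by noncomm_ring
    have h4 : ‖inclR m (y k z) * (b - m t) - (b - m t) * inclR m (y k z)‖ ≤ ε / 2 := by
      have h5 : ‖z‖ * ‖b - m t‖ ≤ ε / 4 := by
        calc ‖z‖ * ‖b - m t‖ ≤ (‖z‖ + 1) * (ε / (4 * (‖z‖ + 1))) := by
              gcongr
              linarith
          _ = ε / 4 := by field_simp
      calc _ ≤ ‖inclR m (y k z)‖ * ‖b - m t‖ + ‖b - m t‖ * ‖inclR m (y k z)‖ :=
            (norm_sub_le _ _).trans (add_le_add (norm_mul_le _ _) (norm_mul_le _ _))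
        _ ≤ ‖z‖ * ‖b - m t‖ + ‖b - m t‖ * ‖z‖ := by gcongr
        _ ≤ ε / 2 := by linarith [mul_comm ‖z‖ ‖b - m t‖]
    rw [e1]
    calc _ ≤ _ := norm_add_le _ _
      _ < ε := by linarith
  let g : B →⋆ₐ[ℂ] A := (e.symm : B →⋆ₐ[ℂ] A)
  have hge : ∀ a, g (e a) = a := fun a => e.symm_apply_apply a
  let θ : ℕ → (Z →⋆ₐ[ℂ] A) := fun k => (g.comp (inclR m)).comp (y k)
  have hθ : ∀ z a, Tendsto (fun k => ‖θ k z * a - a * θ k z‖) atTop (𝓝 0) := by
    intro z a
    refine squeeze_zero (fun k => norm_nonneg _) (fun k => ?_) (hB z (e a))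
    have e1 : θ k z * a - a * θ k z = g (inclR m (y k z) * e a - e a * inclR m (y k z)) := by
      rw [map_sub, map_mul g _ (e a), map_mul g (e a), hge]
      rfl
    rw [e1]
    exact norm_map_le _ _
  have hbd : ∀ z k, ‖θ k z‖ ≤ ‖z‖ := fun z k => norm_map_le _ _
  let Θ : Z →⋆ₐ[ℂ] (ℕ →ᵇ A) :=
    { toFun := fun z => BoundedContinuousFunction.ofNormedAddCommGroup (fun k => θ k z)
        continuous_of_discreteTopology ‖z‖ (hbd z)
      map_one' := by
        ext k
        exact map_one (θ k)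
      map_mul' := fun x y => by
        ext k
        exact map_mul (θ k) x y
      map_zero' := by
        ext k
        exact map_zero (θ k)
      map_add' := fun x y => by
        ext k
        exact map_add (θ k) x y
      commutes' := fun r => by
        ext k
        exact AlgHomClass.commutes (θ k) r
      map_star' := fun x => by
        ext k
        exact map_star (θ k) x }
  exact ⟨Θ, fun z a => (hθ z a).mono_left (hω.trans_eq Nat.cofinite_eq_atTop)⟩

theorem noCharacters_of (ω : Ultrafilter ℕ) (hω : (ω : Filter ℕ) ≤ cofinite)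
    (hZ : IsJiangSu Z) (m : A ⊗[ℂ] Z →⋆ₐ[ℂ] B) (hm : IsMinTensor m) (e : A ≃⋆ₐ[ℂ] B) :
    ¬ ∃ χ : (ℕ →ᵇ A) → ℂ, IsCharacter ω χ := by
  have := hZ.separable
  have := hZ.simple
  rintro ⟨χ, hχ⟩
  obtain ⟨f, hf⟩ := exists_hom_central ω hω hZ.selfAbsorbing m hm.dense e
  let g : Z →⋆ₐ[ℂ] ℂ :=
    { toFun := fun z => χ (f z)
      map_one' := by rw [map_one, hχ.map_one]
      map_mul' := fun x y => by rw [map_mul, hχ.map_mul _ _ (hf x) (hf y)]
      map_zero' := by
        rw [map_zero]
        exact hχ.map_null 0 (by simp)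
      map_add' := fun x y => by rw [map_add, hχ.map_add _ _ (hf x) (hf y)]
      commutes' := fun r => by
        rw [Algebra.algebraMap_eq_smul_one, map_smul, hχ.map_smul _ _ (hf 1), map_one,
          hχ.map_one, Algebra.algebraMap_eq_smul_one, smul_eq_mul]
      map_star' := fun x => by rw [map_star, hχ.map_star _ (hf x)] }
  refine hZ.infiniteDimensional ?_
  have hinj : Function.Injective g := (g : Z →+* ℂ).injective
  exact FiniteDimensional.of_injective g.toAlgHom.toLinearMap hinj

end P101C
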